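import Vale.Agent.Lib.P063.Width

namespace Vale.Agent.Lib.P063

open Finset

/-- the edges all of whose vertices lie in `S`. -/
def edgesIn (n r : ℕ) (S : Finset (Fin n)) : Finset (Edge n r) :=
  Finset.univ.filter (fun e => e.1 ⊆ S)

/-- the clique property: some `k` vertices span a complete `r`-uniform hypergraph. -/
def cliqueProp (n r k : ℕ) : Set (Finset (Edge n r)) :=
  {H | ∃ S : Finset (Fin n), S.card = k ∧ edgesIn n r S ⊆ H}

theorem card_edgesIn (n r : ℕ) (S : Finset (Fin n)) :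
    (edgesIn n r S).card = S.card.choose r := by
  rw [← Finset.card_powersetCard]
  refine Finset.card_bij (fun e _ => e.1) ?_ ?_ ?_
  · intro e he
    rw [edgesIn, Finset.mem_filter] at he
    rw [Finset.mem_powersetCard]
    exact ⟨he.2, e.2⟩
  · intro a _ b _ hab
    exact Subtype.ext hab
  · intro b hb
    rw [Finset.mem_powersetCard] at hb
    refine ⟨⟨b, hb.2⟩, ?_, rfl⟩
    rw [edgesIn, Finset.mem_filter]
    exact ⟨Finset.mem_univ _, hb.1⟩

theorem cliqueProp_upper (n r k : ℕ) : IsUpperSet (cliqueProp n r k) := by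
  intro H H' hHH' hH
  obtain ⟨S, hS, hSH⟩ := hH
  exact ⟨S, hS, hSH.trans hHH'⟩

theorem permEdge_inv {n r : ℕ} (σ : Equiv.Perm (Fin n)) (e : Edge n r) :
    permEdge σ (permEdge σ.symm e) = e := by
  apply Subtype.ext
  ext a
  simp [permEdge]

theorem cliqueProp_invariant (n r k : ℕ) : IsHypergraphProperty (cliqueProp n r k) := by
  intro σ H hH
  obtain ⟨S, hS, hSH⟩ := hH
  refine ⟨S.map σ.toEmbedding, by rw [Finset.card_map]; exact hS, ?_⟩
  intro e he
  rw [edgesIn, Finset.mem_filter] at he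
  rw [Finset.mem_image]
  refine ⟨permEdge σ.symm e, hSH ?_, permEdge_inv σ e⟩
  rw [edgesIn, Finset.mem_filter]
  refine ⟨Finset.mem_univ _, ?_⟩
  intro a ha
  have ha' : a ∈ e.1.map (σ.symm).toEmbedding := ha
  rw [Finset.mem_map_equiv] at ha'
  have := he.2 ha'
  rw [Finset.mem_map_equiv] at this
  simpa using this

theorem cliqueProp_nonempty {n r k : ℕ} (hk : k ≤ n) : (cliqueProp n r k).Nonempty := by
  have hcard : k ≤ (Finset.univ : Finset (Fin n)).card := by
    rw [Finset.card_univ, Fintype.card_fin]; exact hk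
  obtain ⟨S, _, hS⟩ := Finset.exists_subset_card_eq hcard
  exact ⟨Finset.univ, S, hS, Finset.subset_univ _⟩

theorem empty_notMem_cliqueProp {n r k : ℕ} (hrk : r ≤ k) :
    (∅ : Finset (Edge n r)) ∉ cliqueProp n r k := by
  rintro ⟨S, hS, hSH⟩
  have h0 : (edgesIn n r S).card = 0 := by
    rw [Finset.subset_empty.mp hSH, Finset.card_empty]
  rw [card_edgesIn, hS] at h0
  have := Nat.choose_pos hrk
  omega

theorem cliqueProp_witness (n r k : ℕ) :
    ∀ H ∈ cliqueProp n r k, ∃ W ∈ cliqueProp n r k, W ⊆ H ∧ W.card ≤ k.choose r := by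
  intro H hH
  obtain ⟨S, hS, hSH⟩ := hH
  refine ⟨edgesIn n r S, ⟨S, hS, Finset.Subset.refl _⟩, hSH, ?_⟩
  rw [card_edgesIn, hS]

/-- union bound for the clique property. -/
theorem mu_cliqueProp_le (n r k : ℕ) {p : ℝ} (h0 : 0 ≤ p) (h1 : p ≤ 1) :
    mu p (cliqueProp n r k) ≤ (n.choose k : ℝ) * p ^ (k.choose r) := by
  have hset : cliqueProp n r k
      = {H : Finset (Edge n r) | ∃ S ∈ Finset.powersetCard k (Finset.univ : Finset (Fin n)),
          H ∈ {H : Finset (Edge n r) | edgesIn n r S ⊆ H}} := by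
    ext H
    constructor
    · rintro ⟨S, hS, hSH⟩
      exact ⟨S, Finset.mem_powersetCard.mpr ⟨Finset.subset_univ _, hS⟩, hSH⟩
    · rintro ⟨S, hS, hSH⟩
      exact ⟨S, (Finset.mem_powersetCard.mp hS).2, hSH⟩
  rw [hset]
  refine (mu_biUnion_le h0 h1 _ _).trans ?_
  have hterm : ∀ S ∈ Finset.powersetCard k (Finset.univ : Finset (Fin n)),
      mu p {H : Finset (Edge n r) | edgesIn n r S ⊆ H} = p ^ (k.choose r) := by
    intro S hS
    rw [mu_Ici, card_edgesIn, (Finset.mem_powersetCard.mp hS).2]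
  rw [Finset.sum_congr rfl hterm, Finset.sum_const, Finset.card_powersetCard, Finset.card_univ,
    Fintype.card_fin, nsmul_eq_mul]

end Vale.Agent.Lib.P063
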