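import Mathlib

namespace Vale.Agent.Lib.P063

/-- The possible edges of an `r`-uniform hypergraph on the vertex set `Fin n`:
the `r`-element subsets of `Fin n`. A hypergraph is a `Finset (Edge n r)`. -/
abbrev Edge (n r : ℕ) : Type := {e : Finset (Fin n) // e.card = r}

/-- `mu p P` is the probability that a random subset `H` of the finite type `α`, each element
being present independently with probability `p`, lies in the family `P`. -/
noncomputable def mu {α : Type} [Fintype α] (p : ℝ) (P : Set (Finset α)) : ℝ :=
  ∑ H : Finset α, P.indicator (fun G => p ^ G.card * (1 - p) ^ (Fintype.card α - G.card)) H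

/-- `pcrit a P` is the infimum of all `p` in `[0,1]` with `mu p P ≥ a`. -/
noncomputable def pcrit {α : Type} [Fintype α] (a : ℝ) (P : Set (Finset α)) : ℝ :=
  sInf {p : ℝ | 0 ≤ p ∧ p ≤ 1 ∧ a ≤ mu p P}

/-- The threshold width `w_ε(P) = p_{1-ε}(P) - p_ε(P)`. -/
noncomputable def width {α : Type} [Fintype α] (ε : ℝ) (P : Set (Finset α)) : ℝ :=
  pcrit (1 - ε) P - pcrit ε P

/-- The image of an edge under a permutation of the vertices. -/
def permEdge {n r : ℕ} (σ : Equiv.Perm (Fin n)) (e : Edge n r) : Edge n r :=
  ⟨e.1.map σ.toEmbedding, by rw [Finset.card_map]; exact e.2⟩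

/-- A family of `r`-uniform hypergraphs on `Fin n` is a hypergraph property if it is invariant
under all permutations of the vertex set. -/
def IsHypergraphProperty {n r : ℕ} (P : Set (Finset (Edge n r))) : Prop :=
  ∀ (σ : Equiv.Perm (Fin n)) (H : Finset (Edge n r)), H ∈ P → H.image (permEdge σ) ∈ P

end Vale.Agent.Lib.P063
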