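import Vale.Agent.Lib.P063.Params

namespace Vale.Agent.Lib.P063

theorem mu_clique_small {n r k : ℕ} (hrk : r ≤ k) (hn : 0 < n)
    (hkL : (k : ℝ) * Real.log n ≤ (k.choose r : ℝ)) {ε : ℝ} (hε0 : 0 < ε)
    {p : ℝ} (h0 : 0 ≤ p) (h1 : p ≤ 1)
    (hp : p < ε ^ ((1 : ℝ) / (k.choose r : ℝ)) * Real.exp (-1)) :
    mu p (cliqueProp n r k) < ε := by
  have hm : 0 < k.choose r := Nat.choose_pos hrk
  have hmpos : (0 : ℝ) < (k.choose r : ℝ) := by exact_mod_cast hm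
  have hnpos : (0 : ℝ) < n := by exact_mod_cast hn
  have hb1 := mu_cliqueProp_le n r k h0 h1
  have hb2 : (n.choose k : ℝ) ≤ (n : ℝ) ^ k := by exact_mod_cast Nat.choose_le_pow n k
  have hpm : 0 ≤ p ^ (k.choose r) := pow_nonneg h0 _
  have hb3 : p ^ (k.choose r)
      < (ε ^ ((1 : ℝ) / (k.choose r : ℝ)) * Real.exp (-1)) ^ (k.choose r) :=
    pow_lt_pow_left₀ hp h0 (by omega)
  have hb4 : (ε ^ ((1 : ℝ) / (k.choose r : ℝ)) * Real.exp (-1)) ^ (k.choose r)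
      = ε * Real.exp (-(k.choose r : ℝ)) := by
    rw [mul_pow]
    have e1 : Real.exp (-1) ^ (k.choose r) = Real.exp (-(k.choose r : ℝ)) := by
      rw [← Real.exp_nat_mul]
      congr 1
      ring
    have e2 : (ε ^ ((1 : ℝ) / (k.choose r : ℝ))) ^ (k.choose r) = ε := by
      rw [← Real.rpow_natCast, ← Real.rpow_mul hε0.le]
      have : (1 : ℝ) / (k.choose r : ℝ) * (k.choose r : ℝ) = 1 := by field_simp
      rw [this, Real.rpow_one]
    rw [e1, e2]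
  have hb5 : (n : ℝ) ^ k = Real.exp ((k : ℝ) * Real.log n) := by
    rw [Real.exp_nat_mul, Real.exp_log hnpos]
  have hnk : (0 : ℝ) < (n : ℝ) ^ k := pow_pos hnpos k
  have hb6 : (n : ℝ) ^ k * Real.exp (-(k.choose r : ℝ)) ≤ 1 := by
    rw [hb5, ← Real.exp_add]
    rw [Real.exp_le_one_iff]
    linarith
  calc mu p (cliqueProp n r k) ≤ (n.choose k : ℝ) * p ^ (k.choose r) := hb1
    _ ≤ (n : ℝ) ^ k * p ^ (k.choose r) := mul_le_mul_of_nonneg_right hb2 hpm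
    _ < (n : ℝ) ^ k * (ε ^ ((1 : ℝ) / (k.choose r : ℝ)) * Real.exp (-1)) ^ (k.choose r) :=
        mul_lt_mul_of_pos_left hb3 hnk
    _ = ε * ((n : ℝ) ^ k * Real.exp (-(k.choose r : ℝ))) := by rw [hb4]; ring
    _ ≤ ε * 1 := mul_le_mul_of_nonneg_left hb6 hε0.le
    _ = ε := mul_one ε

/-- if `1/n ≤ ε` and `log n ≤ m` then `exp (-1) ≤ ε ^ (1/m)`. -/
theorem rpow_inv_ge {n : ℕ} (hn : 0 < n) {m : ℝ} (hm : 0 < m) (hLm : Real.log n ≤ m)
    {ε : ℝ} (hε0 : 0 < ε) (hεn : 1 / (n : ℝ) ≤ ε) :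
    Real.exp (-1) ≤ ε ^ ((1 : ℝ) / m) := by
  have hnpos : (0 : ℝ) < n := by exact_mod_cast hn
  have h1 : Real.log (1 / (n : ℝ)) ≤ Real.log ε :=
    Real.log_le_log (by positivity) hεn
  rw [one_div, Real.log_inv] at h1
  rw [Real.rpow_def_of_pos hε0]
  apply Real.exp_le_exp.mpr
  have h2 : -m ≤ Real.log ε := by linarith
  have h3 : -1 = -m * (1 / m) := by field_simp
  rw [h3]
  exact mul_le_mul_of_nonneg_right h2 (by positivity)

theorem hypergraph_width_lower (r : ℕ) (hr : 2 ≤ r) :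
    ∃ c : ℝ, 0 < c ∧ ∃ n₀ : ℕ, ∀ n : ℕ, n₀ ≤ n →
      ∃ P : Set (Finset (Edge n r)),
        IsHypergraphProperty P ∧ IsUpperSet P ∧ P.Nonempty ∧ P ≠ Set.univ ∧
        ∀ ε : ℝ, 1 / (n : ℝ) ≤ ε → ε < 1 / 2 →
          c * Real.log ((1 - ε) / ε) * (Real.log (n : ℝ)) ^ (-(r : ℝ) / ((r : ℝ) - 1))
            ≤ width ε P := by
  obtain ⟨C, hC, n₀, hn₀⟩ := exists_params r hr
  refine ⟨Real.exp (-1) * Real.exp (-1) / C, by positivity, max n₀ 1, ?_⟩
  intro n hn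
  have hn1 : 0 < n := lt_of_lt_of_le Nat.zero_lt_one ((le_max_right n₀ 1).trans hn)
  have hnpos : (0 : ℝ) < n := by exact_mod_cast hn1
  obtain ⟨k, hrk, hkn, hkL, hkC, hL1⟩ := hn₀ n ((le_max_left n₀ 1).trans hn)
  refine ⟨cliqueProp n r k, cliqueProp_invariant n r k, cliqueProp_upper n r k,
    cliqueProp_nonempty hkn, ?_, ?_⟩
  · intro h
    have := empty_notMem_cliqueProp (n := n) hrk
    rw [h] at this
    exact this (Set.mem_univ _)
  · intro ε hεn hε1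
    have hε0 : 0 < ε := lt_of_lt_of_le (by positivity) hεn
    have hm : 0 < k.choose r := Nat.choose_pos hrk
    have hmpos : (0 : ℝ) < (k.choose r : ℝ) := by exact_mod_cast hm
    have hL0 : 0 ≤ Real.log (n : ℝ) := by linarith
    have hk1 : (1 : ℝ) ≤ k := by exact_mod_cast (by omega : 1 ≤ k)
    have hLm : Real.log (n : ℝ) ≤ (k.choose r : ℝ) := by
      refine le_trans ?_ hkL
      nlinarith
    have hp0 : Real.exp (-1) * Real.exp (-1)
        ≤ ε ^ ((1 : ℝ) / (k.choose r : ℝ)) * Real.exp (-1) :=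
      mul_le_mul_of_nonneg_right (rpow_inv_ge hn1 hmpos hLm hε0 hεn) (Real.exp_pos _).le
    have hw := width_ge_of_small_witness (cliqueProp_upper n r k) (cliqueProp_nonempty hkn) hm
      (cliqueProp_witness n r k) hε0 hε1
      (p0 := ε ^ ((1 : ℝ) / (k.choose r : ℝ)) * Real.exp (-1)) (by positivity)
      (fun p h0 h1 hp => mu_clique_small hrk hn1 hkL hε0 h0 h1 hp)
    refine le_trans ?_ hw
    have hratio : 1 ≤ (1 - ε) / ε := by
      rw [le_div_iff₀ hε0]; linarith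
    have hlog : 0 ≤ Real.log ((1 - ε) / ε) := Real.log_nonneg hratio
    have hpowpos : 0 < (Real.log (n : ℝ)) ^ ((r : ℝ) / ((r : ℝ) - 1)) :=
      Real.rpow_pos_of_pos (by linarith) _
    have hneg : (Real.log (n : ℝ)) ^ (-(r : ℝ) / ((r : ℝ) - 1))
        = ((Real.log (n : ℝ)) ^ ((r : ℝ) / ((r : ℝ) - 1)))⁻¹ := by
      rw [neg_div, Real.rpow_neg hL0]
    rw [hneg]
    have hinv : (C * (Real.log (n : ℝ)) ^ ((r : ℝ) / ((r : ℝ) - 1)))⁻¹
        ≤ ((k.choose r : ℝ))⁻¹ := by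
      apply inv_anti₀ hmpos hkC
    have hee : 0 ≤ Real.exp (-1) * Real.exp (-1) := by positivity
    have hlogm : 0 ≤ Real.log ((1 - ε) / ε) / (k.choose r : ℝ) := div_nonneg hlog hmpos.le
    calc Real.exp (-1) * Real.exp (-1) / C * Real.log ((1 - ε) / ε)
          * ((Real.log (n : ℝ)) ^ ((r : ℝ) / ((r : ℝ) - 1)))⁻¹
        = Real.exp (-1) * Real.exp (-1) * (Real.log ((1 - ε) / ε)
          * (C * (Real.log (n : ℝ)) ^ ((r : ℝ) / ((r : ℝ) - 1)))⁻¹) := by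
          rw [mul_inv]; ring
      _ ≤ Real.exp (-1) * Real.exp (-1) * (Real.log ((1 - ε) / ε) * ((k.choose r : ℝ))⁻¹) := by
          apply mul_le_mul_of_nonneg_left _ hee
          exact mul_le_mul_of_nonneg_left hinv hlog
      _ = Real.exp (-1) * Real.exp (-1) * (Real.log ((1 - ε) / ε) / (k.choose r : ℝ)) := by
          ring
      _ ≤ ε ^ ((1 : ℝ) / (k.choose r : ℝ)) * Real.exp (-1)
            * (Real.log ((1 - ε) / ε) / (k.choose r : ℝ)) :=
          mul_le_mul_of_nonneg_right hp0 hlogm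

end Vale.Agent.Lib.P063
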