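import Vale.Agent.Lib.P063.Thinning

namespace Vale.Agent.Lib.P063

open Finset

variable {α : Type} [Fintype α] [DecidableEq α]

theorem wt_nonneg {p : ℝ} (h0 : 0 ≤ p) (h1 : p ≤ 1) (H : Finset α) :
    0 ≤ p ^ H.card * (1 - p) ^ (Fintype.card α - H.card) :=
  mul_nonneg (pow_nonneg h0 _) (pow_nonneg (by linarith) _)

omit [DecidableEq α] in
theorem mu_nonneg {p : ℝ} (h0 : 0 ≤ p) (h1 : p ≤ 1) (P : Set (Finset α)) : 0 ≤ mu p P := by
  classical
  unfold mu
  refine Finset.sum_nonneg fun H _ => ?_
  exact Set.indicator_nonneg (fun G _ => wt_nonneg h0 h1 G) H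

omit [DecidableEq α] in
theorem mu_mono {p : ℝ} (h0 : 0 ≤ p) (h1 : p ≤ 1) {P Q : Set (Finset α)} (h : P ⊆ Q) :
    mu p P ≤ mu p Q := by
  classical
  unfold mu
  refine Finset.sum_le_sum fun H _ => ?_
  exact Set.indicator_le_indicator_of_subset h (fun G => wt_nonneg h0 h1 G) H

omit [DecidableEq α] in
theorem mu_univ (p : ℝ) : mu p (Set.univ : Set (Finset α)) = 1 := by
  classical
  unfold mu
  simp only [Set.indicator_univ]
  rw [Fintype.sum_pow_mul_eq_add_pow]
  simp

omit [DecidableEq α] in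
theorem mu_le_one {p : ℝ} (h0 : 0 ≤ p) (h1 : p ≤ 1) (P : Set (Finset α)) : mu p P ≤ 1 := by
  rw [← mu_univ (α := α) p]
  exact mu_mono h0 h1 (Set.subset_univ P)

/-- the probability of containing a fixed set `W` is `p ^ |W|`. -/
theorem mu_Ici (p : ℝ) (W : Finset α) : mu p {H : Finset α | W ⊆ H} = p ^ W.card := by
  classical
  unfold mu
  rw [Finset.sum_indicator_eq_sum_filter]
  have : (Finset.univ.filter fun H : Finset α => H ∈ {H : Finset α | W ⊆ H})
      = Finset.Icc W Finset.univ := by
    ext y; simp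
  rw [this]
  have := sum_Icc_pow p (Finset.subset_univ W)
  rw [Finset.card_univ] at this
  exact this

omit [DecidableEq α] in
/-- union bound. -/
theorem mu_biUnion_le {ι : Type} {p : ℝ} (h0 : 0 ≤ p) (h1 : p ≤ 1) (s : Finset ι)
    (Q : ι → Set (Finset α)) :
    mu p {H : Finset α | ∃ i ∈ s, H ∈ Q i} ≤ ∑ i ∈ s, mu p (Q i) := by
  classical
  unfold mu
  rw [Finset.sum_comm]
  refine Finset.sum_le_sum fun H _ => ?_
  by_cases hH : H ∈ {H : Finset α | ∃ i ∈ s, H ∈ Q i}
  · obtain ⟨i, his, hi⟩ := hH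
    have hH' : H ∈ {H : Finset α | ∃ i ∈ s, H ∈ Q i} := ⟨i, his, hi⟩
    rw [Set.indicator_of_mem hH']
    calc p ^ H.card * (1 - p) ^ (Fintype.card α - H.card)
        = (Q i).indicator (fun G => p ^ G.card * (1 - p) ^ (Fintype.card α - G.card)) H := by
          rw [Set.indicator_of_mem hi]
      _ ≤ ∑ j ∈ s, (Q j).indicator
            (fun G => p ^ G.card * (1 - p) ^ (Fintype.card α - G.card)) H :=
          Finset.single_le_sum
            (f := fun j => (Q j).indicator
              (fun G => p ^ G.card * (1 - p) ^ (Fintype.card α - G.card)) H)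
            (fun j _ => Set.indicator_nonneg (fun G _ => wt_nonneg h0 h1 G) H) his
  · rw [Set.indicator_of_notMem hH]
    exact Finset.sum_nonneg fun j _ => Set.indicator_nonneg (fun G _ => wt_nonneg h0 h1 G) H

omit [DecidableEq α] in
theorem mu_one {P : Set (Finset α)} (h : (Finset.univ : Finset α) ∈ P) : mu 1 P = 1 := by
  classical
  unfold mu
  rw [Finset.sum_eq_single (Finset.univ : Finset α)]
  · rw [Set.indicator_of_mem h]
    simp
  · intro H _ hH
    by_cases hHP : H ∈ P
    · rw [Set.indicator_of_mem hHP]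
      have hlt : H.card < Fintype.card α := by
        rw [← Finset.card_univ]
        exact Finset.card_lt_card (Finset.ssubset_univ_iff.mpr hH)
      have : Fintype.card α - H.card ≠ 0 := by omega
      simp [this]
    · rw [Set.indicator_of_notMem hHP]
  · intro h'; exact absurd (Finset.mem_univ _) h'

omit [DecidableEq α] in
theorem mu_zero {P : Set (Finset α)} (h : (∅ : Finset α) ∉ P) : mu 0 P = 0 := by
  classical
  unfold mu
  refine Finset.sum_eq_zero fun H _ => ?_
  by_cases hHP : H ∈ P
  · rw [Set.indicator_of_mem hHP]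
    have : H.card ≠ 0 := by
      intro h0
      rw [Finset.card_eq_zero] at h0
      exact h (h0 ▸ hHP)
    simp [this]
  · rw [Set.indicator_of_notMem hHP]

/-- coupling inequality: if every member of the increasing family `P` contains a member of size
at most `m`, then `θ^m * mu q P ≤ mu (q θ) P`. -/
theorem mu_thin_le {P : Set (Finset α)} (hP : IsUpperSet P) {m : ℕ}
    (hW : ∀ H ∈ P, ∃ W ∈ P, W ⊆ H ∧ W.card ≤ m) {q θ : ℝ} (hq0 : 0 ≤ q) (hq1 : q ≤ 1)
    (hθ0 : 0 ≤ θ) (hθ1 : θ ≤ 1) :
    θ ^ m * mu q P ≤ mu (q * θ) P := by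
  classical
  set F : Finset α → Finset α → ℝ := fun x y =>
    if x ⊆ y then P.indicator (fun _ => (1 : ℝ)) x *
      (q ^ y.card * (1 - q) ^ (Fintype.card α - y.card) *
        (θ ^ x.card * (1 - θ) ^ (y.card - x.card))) else 0 with hF
  have hFnn : ∀ x y, 0 ≤ F x y := by
    intro x y
    rw [hF]
    simp only
    split_ifs
    · refine mul_nonneg (Set.indicator_nonneg (fun _ _ => zero_le_one) x) ?_
      exact mul_nonneg (wt_nonneg hq0 hq1 y)
        (mul_nonneg (pow_nonneg hθ0 _) (pow_nonneg (by linarith) _))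
    · exact le_refl 0
  have h1 : mu (q * θ) P = ∑ x, ∑ y, F x y := by
    unfold mu
    refine Finset.sum_congr rfl fun x _ => ?_
    rw [hF]
    simp only
    rw [← Finset.sum_filter]
    have hI : (Finset.univ.filter fun y : Finset α => x ⊆ y) = Finset.Icc x Finset.univ := by
      ext y; simp
    rw [hI, ← Finset.mul_sum, sum_Icc_thin]
    by_cases hx : x ∈ P
    · rw [Set.indicator_of_mem hx, Set.indicator_of_mem hx, one_mul]
    · rw [Set.indicator_of_notMem hx, Set.indicator_of_notMem hx, zero_mul]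
  have h2 : ∀ y : Finset α,
      θ ^ m * P.indicator (fun G => q ^ G.card * (1 - q) ^ (Fintype.card α - G.card)) y
        ≤ ∑ x, F x y := by
    intro y
    by_cases hy : y ∈ P
    · obtain ⟨W, hWP, hWy, hWm⟩ := hW y hy
      rw [Set.indicator_of_mem hy]
      have hsum : ∑ x ∈ Finset.Icc W y, F x y
          = q ^ y.card * (1 - q) ^ (Fintype.card α - y.card) * θ ^ W.card := by
        rw [← sum_Icc_pow θ hWy, Finset.mul_sum]
        refine Finset.sum_congr rfl fun x hx => ?_
        rw [Finset.mem_Icc] at hx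
        have hxP : x ∈ P := hP hx.1 hWP
        rw [hF]
        simp only
        rw [if_pos hx.2, Set.indicator_of_mem hxP, one_mul]
      calc θ ^ m * (q ^ y.card * (1 - q) ^ (Fintype.card α - y.card))
          ≤ θ ^ W.card * (q ^ y.card * (1 - q) ^ (Fintype.card α - y.card)) :=
            mul_le_mul_of_nonneg_right (pow_le_pow_of_le_one hθ0 hθ1 hWm) (wt_nonneg hq0 hq1 y)
        _ = ∑ x ∈ Finset.Icc W y, F x y := by rw [hsum, mul_comm]
        _ ≤ ∑ x, F x y :=
            Finset.sum_le_sum_of_subset_of_nonneg (Finset.subset_univ _) (fun x _ _ => hFnn x y)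
    · rw [Set.indicator_of_notMem hy, mul_zero]
      exact Finset.sum_nonneg fun x _ => hFnn x y
  rw [h1, Finset.sum_comm]
  unfold mu
  rw [Finset.mul_sum]
  exact Finset.sum_le_sum fun y _ => h2 y

end Vale.Agent.Lib.P063
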