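import Vale.Agent.Lib.P063.Clique

namespace Vale.Agent.Lib.P063

theorem log_le_two_sqrt {x : ℝ} (hx : 0 < x) : Real.log x ≤ 2 * Real.sqrt x := by
  have hs : 0 < Real.sqrt x := Real.sqrt_pos.mpr hx
  have h1 : Real.log (Real.sqrt x) ≤ Real.sqrt x - 1 := Real.log_le_sub_one_of_pos hs
  rw [Real.log_sqrt hx.le] at h1
  linarith

theorem exists_params (r : ℕ) (hr : 2 ≤ r) :
    ∃ C : ℝ, 0 < C ∧ ∃ n₀ : ℕ, ∀ n : ℕ, n₀ ≤ n → ∃ k : ℕ, r ≤ k ∧ k ≤ n ∧
      (k : ℝ) * Real.log n ≤ (k.choose r : ℝ) ∧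
      (k.choose r : ℝ) ≤ C * (Real.log n) ^ ((r : ℝ) / ((r : ℝ) - 1)) ∧ 1 ≤ Real.log n := by
  set A : ℕ := r * r.factorial with hA
  have hfpos : 0 < r.factorial := Nat.factorial_pos r
  have hApos : 1 ≤ A := Nat.mul_pos (by omega) hfpos
  have hAr : r ≤ A := Nat.le_mul_of_pos_right r hfpos
  refine ⟨(4 * (A : ℝ)) ^ r, by positivity, 64 * A ^ 2, ?_⟩
  intro n hn
  have hA2 : 1 ≤ A ^ 2 := Nat.one_le_pow _ _ hApos
  have hn64 : 64 ≤ n := by nlinarith
  have hnpos : (0 : ℝ) < n := by exact_mod_cast (by omega : 0 < n)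
  have hn64' : (64 : ℝ) ≤ n := by exact_mod_cast hn64
  set L : ℝ := Real.log n with hL
  have hL1 : 1 ≤ L := by
    rw [hL, Real.le_log_iff_exp_le hnpos]
    have := Real.exp_one_lt_d9
    linarith
  have hL0 : 0 ≤ L := by linarith
  have hρ2 : (2 : ℝ) ≤ r := by exact_mod_cast hr
  have hρ1 : (0 : ℝ) < (r : ℝ) - 1 := by linarith
  set u : ℝ := L ^ ((1 : ℝ) / ((r : ℝ) - 1)) with hu
  have hu1 : 1 ≤ u := Real.one_le_rpow hL1 (by positivity)
  have hu0 : 0 ≤ u := by linarith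
  have hu_le : u ≤ L := by
    have h : (1 : ℝ) / ((r : ℝ) - 1) ≤ 1 := by
      rw [div_le_one hρ1]; linarith
    have := Real.rpow_le_rpow_of_exponent_le hL1 h
    rwa [Real.rpow_one] at this
  have hcast : ((r - 1 : ℕ) : ℝ) = (r : ℝ) - 1 := by
    rw [Nat.cast_sub (by omega : 1 ≤ r)]; simp
  have hu_pow : u ^ (r - 1) = L := by
    rw [hu, ← Real.rpow_natCast, ← Real.rpow_mul hL0, hcast]
    have : (1 : ℝ) / ((r : ℝ) - 1) * ((r : ℝ) - 1) = 1 := by field_simp
    rw [this, Real.rpow_one]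
  have hu_powr : u ^ r = L ^ ((r : ℝ) / ((r : ℝ) - 1)) := by
    rw [hu, ← Real.rpow_natCast, ← Real.rpow_mul hL0]
    congr 1
    ring
  set t : ℕ := ⌈u⌉₊ with ht
  have ht_ge : u ≤ (t : ℝ) := Nat.le_ceil u
  have ht_lt : (t : ℝ) < u + 1 := Nat.ceil_lt_add_one hu0
  have ht1' : (1 : ℝ) ≤ t := by linarith
  have ht1 : 1 ≤ t := by exact_mod_cast ht1'
  have hAt : 1 ≤ A * t := Nat.mul_pos hApos ht1
  refine ⟨r - 1 + A * t, by omega, ?_, ?_, ?_, hL1⟩
  · -- k ≤ n
    have hk : ((r - 1 + A * t : ℕ) : ℝ) ≤ 4 * A * L := by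
      push_cast
      rw [hcast]
      have h1 : (r : ℝ) ≤ A := by exact_mod_cast hAr
      have h2 : (A : ℝ) ≤ A * t := by
        have hA0 : (0 : ℝ) ≤ A := by positivity
        nlinarith
      have h3 : (A : ℝ) * t ≤ A * (2 * L) := by
        have hA0 : (0 : ℝ) ≤ A := by positivity
        apply mul_le_mul_of_nonneg_left _ hA0
        linarith
      nlinarith
    have hsq : Real.log n ≤ 2 * Real.sqrt n := log_le_two_sqrt hnpos
    have h8 : 8 * (A : ℝ) ≤ Real.sqrt n := by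
      apply Real.le_sqrt_of_sq_le
      have : ((64 * A ^ 2 : ℕ) : ℝ) ≤ n := by exact_mod_cast hn
      push_cast at this
      nlinarith
    have hss : Real.sqrt n * Real.sqrt n = n := Real.mul_self_sqrt hnpos.le
    have hs0 : 0 ≤ Real.sqrt (n : ℝ) := Real.sqrt_nonneg _
    have hA0 : (0 : ℝ) ≤ A := by positivity
    have hfin : 4 * (A : ℝ) * L ≤ n := by
      calc 4 * (A : ℝ) * L ≤ 4 * A * (2 * Real.sqrt n) := by
            apply mul_le_mul_of_nonneg_left hsq (by positivity)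
        _ = 8 * A * Real.sqrt n := by ring
        _ ≤ Real.sqrt n * Real.sqrt n := mul_le_mul_of_nonneg_right h8 hs0
        _ = n := hss
    exact_mod_cast hk.trans hfin
  · -- k * L ≤ choose k r
    have hch := Nat.pow_le_choose (α := ℝ) r (r - 1 + A * t)
    have hk1 : r - 1 + A * t + 1 - r = A * t := by omega
    rw [hk1] at hch
    refine le_trans ?_ hch
    have hfpos' : (0 : ℝ) < (r.factorial : ℝ) := by exact_mod_cast hfpos
    rw [le_div_iff₀ hfpos']
    push_cast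
    rw [hcast]
    have hA0 : (1 : ℝ) ≤ A := by exact_mod_cast hApos
    have hAeq : (A : ℝ) = r * r.factorial := by rw [hA]; push_cast; ring
    have hr1 : r = (r - 1) + 1 := by omega
    have hpow : (A : ℝ) * L ≤ ((A : ℝ) * t) ^ (r - 1) := by
      rw [mul_pow]
      have h1 : (A : ℝ) ≤ (A : ℝ) ^ (r - 1) := le_self_pow₀ hA0 (by omega)
      have h2 : L ≤ (t : ℝ) ^ (r - 1) := by
        rw [← hu_pow]
        exact pow_le_pow_left₀ hu0 ht_ge _
      exact mul_le_mul h1 h2 hL0 (by positivity)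
    have hAt0 : (0 : ℝ) ≤ (A : ℝ) * t := by positivity
    have hAt1 : (1 : ℝ) ≤ (A : ℝ) * t := by nlinarith
    have hpow' : ((A : ℝ) * t) ^ r = ((A : ℝ) * t) ^ (r - 1) * ((A : ℝ) * t) := by
      conv_lhs => rw [hr1, pow_succ]
    rw [hpow']
    have hkle : ((r : ℝ) - 1 + A * t) ≤ r * (A * t) := by nlinarith
    calc ((r : ℝ) - 1 + A * t) * L * r.factorial
        ≤ (r * (A * t)) * L * r.factorial := by
          apply mul_le_mul_of_nonneg_right _ hfpos'.le
          exact mul_le_mul_of_nonneg_right hkle hL0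
      _ = (A * L) * (A * t) := by rw [hAeq]; ring
      _ ≤ ((A : ℝ) * t) ^ (r - 1) * ((A : ℝ) * t) := mul_le_mul_of_nonneg_right hpow hAt0
  · -- choose k r ≤ C * L^(r/(r-1))
    have h1 : ((r - 1 + A * t).choose r : ℝ) ≤ ((r - 1 + A * t : ℕ) : ℝ) ^ r := by
      exact_mod_cast Nat.choose_le_pow (r - 1 + A * t) r
    refine h1.trans ?_
    rw [← hu_powr, ← mul_pow]
    apply pow_le_pow_left₀ (by positivity)
    push_cast
    rw [hcast]
    have h1 : (r : ℝ) ≤ A := by exact_mod_cast hAr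
    have hA0 : (0 : ℝ) ≤ A := by positivity
    have h2 : (A : ℝ) ≤ A * t := by nlinarith
    have h3 : (A : ℝ) * t ≤ A * (2 * u) := by
      apply mul_le_mul_of_nonneg_left _ hA0
      linarith
    nlinarith

end Vale.Agent.Lib.P063
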