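import Vale.Agent.Lib.P063.Defs

namespace Vale.Agent.Lib.P063

open Finset

variable {α : Type} [Fintype α] [DecidableEq α]

/-- interval sum: `∑_{W ⊆ x ⊆ y} θ^|x| (1-θ)^(|y|-|x|) = θ^|W|`. -/
theorem sum_Icc_pow (θ : ℝ) {W y : Finset α} (h : W ⊆ y) :
    ∑ x ∈ Finset.Icc W y, θ ^ x.card * (1 - θ) ^ (y.card - x.card) = θ ^ W.card := by
  rw [Finset.Icc_eq_image_powerset h, Finset.sum_image]
  · have key : ∀ z ∈ (y \ W).powerset,
        θ ^ (W ∪ z).card * (1 - θ) ^ (y.card - (W ∪ z).card)
          = θ ^ W.card * (θ ^ z.card * (1 - θ) ^ ((y \ W).card - z.card)) := by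
      intro z hz
      rw [Finset.mem_powerset] at hz
      have hdisj : Disjoint W z := by
        rw [Finset.disjoint_left]
        intro a ha haz
        exact (Finset.mem_sdiff.mp (hz haz)).2 ha
      rw [Finset.card_union_of_disjoint hdisj, Finset.card_sdiff_of_subset h, pow_add]
      have : y.card - (W.card + z.card) = y.card - W.card - z.card := by omega
      rw [this]
      ring
    rw [Finset.sum_congr rfl key, ← Finset.mul_sum, Finset.sum_pow_mul_eq_add_pow]
    simp
  · intro a ha b hb hab
    rw [Finset.mem_coe, Finset.mem_powerset] at ha hb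
    have hda : Disjoint W a := by
      rw [Finset.disjoint_left]
      intro c hc hca
      exact (Finset.mem_sdiff.mp (ha hca)).2 hc
    have hdb : Disjoint W b := by
      rw [Finset.disjoint_left]
      intro c hc hcb
      exact (Finset.mem_sdiff.mp (hb hcb)).2 hc
    have h1 : (W ∪ a) \ W = a := Finset.union_sdiff_cancel_left hda
    have h2 : (W ∪ b) \ W = b := Finset.union_sdiff_cancel_left hdb
    have hab' : W ∪ a = W ∪ b := hab
    rw [← h1, ← h2, hab']

/-- thinning identity. -/
theorem sum_Icc_thin (q θ : ℝ) (x : Finset α) :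
    ∑ y ∈ Finset.Icc x (Finset.univ : Finset α),
        q ^ y.card * (1 - q) ^ (Fintype.card α - y.card) * (θ ^ x.card * (1 - θ) ^ (y.card - x.card))
      = (q * θ) ^ x.card * (1 - q * θ) ^ (Fintype.card α - x.card) := by
  have h : x ⊆ (Finset.univ : Finset α) := Finset.subset_univ x
  rw [Finset.Icc_eq_image_powerset h, Finset.sum_image]
  · have key : ∀ z ∈ ((Finset.univ : Finset α) \ x).powerset,
        q ^ (x ∪ z).card * (1 - q) ^ (Fintype.card α - (x ∪ z).card)
            * (θ ^ x.card * (1 - θ) ^ ((x ∪ z).card - x.card))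
          = (q * θ) ^ x.card * ((q * (1 - θ)) ^ z.card
              * (1 - q) ^ (((Finset.univ : Finset α) \ x).card - z.card)) := by
      intro z hz
      rw [Finset.mem_powerset] at hz
      have hdisj : Disjoint x z := by
        rw [Finset.disjoint_left]
        intro a ha haz
        exact (Finset.mem_sdiff.mp (hz haz)).2 ha
      rw [Finset.card_union_of_disjoint hdisj, Finset.card_sdiff_of_subset h, pow_add,
        Finset.card_univ]
      have e1 : Fintype.card α - (x.card + z.card) = Fintype.card α - x.card - z.card := by omega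
      have e2 : x.card + z.card - x.card = z.card := by omega
      rw [e1, e2, mul_pow, mul_pow]
      ring
    rw [Finset.sum_congr rfl key, ← Finset.mul_sum, Finset.sum_pow_mul_eq_add_pow,
      Finset.card_sdiff_of_subset h, Finset.card_univ]
    congr 2
    ring
  · intro a ha b hb hab
    rw [Finset.mem_coe, Finset.mem_powerset] at ha hb
    have hda : Disjoint x a := by
      rw [Finset.disjoint_left]
      intro c hc hca
      exact (Finset.mem_sdiff.mp (ha hca)).2 hc
    have hdb : Disjoint x b := by
      rw [Finset.disjoint_left]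
      intro c hc hcb
      exact (Finset.mem_sdiff.mp (hb hcb)).2 hc
    have h1 : (x ∪ a) \ x = a := Finset.union_sdiff_cancel_left hda
    have h2 : (x ∪ b) \ x = b := Finset.union_sdiff_cancel_left hdb
    have hab' : x ∪ a = x ∪ b := hab
    rw [← h1, ← h2, hab']

end Vale.Agent.Lib.P063
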