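import Vale.Agent.Lib.P063.Mu

namespace Vale.Agent.Lib.P063

open Finset

variable {α : Type} [Fintype α] [DecidableEq α]

omit [DecidableEq α] in
theorem univ_mem_of_upper {P : Set (Finset α)} (hP : IsUpperSet P) (hne : P.Nonempty) :
    (Finset.univ : Finset α) ∈ P := by
  obtain ⟨H, hH⟩ := hne
  exact hP (Finset.subset_univ H) hH

omit [DecidableEq α] in
theorem pcrit_set_nonempty {P : Set (Finset α)} (hP : IsUpperSet P) (hne : P.Nonempty)
    {a : ℝ} (ha : a ≤ 1) : ({p : ℝ | 0 ≤ p ∧ p ≤ 1 ∧ a ≤ mu p P}).Nonempty :=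
  ⟨1, zero_le_one, le_refl 1, by rw [mu_one (univ_mem_of_upper hP hne)]; exact ha⟩

omit [DecidableEq α] in
theorem pcrit_set_bddBelow (P : Set (Finset α)) (a : ℝ) :
    BddBelow {p : ℝ | 0 ≤ p ∧ p ≤ 1 ∧ a ≤ mu p P} :=
  ⟨0, fun _ hp => hp.1⟩

omit [DecidableEq α] in
theorem pcrit_nonneg {P : Set (Finset α)} (a : ℝ) : 0 ≤ pcrit a P := by
  unfold pcrit
  exact Real.sInf_nonneg (fun p hp => hp.1)

omit [DecidableEq α] in
/-- below the critical value the measure is small. -/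
theorem mu_lt_of_lt_pcrit {P : Set (Finset α)} {a q : ℝ} (h0 : 0 ≤ q) (h1 : q ≤ 1)
    (hq : q < pcrit a P) : mu q P < a := by
  by_contra hcon
  rw [not_lt] at hcon
  have : pcrit a P ≤ q := csInf_le (pcrit_set_bddBelow P a) ⟨h0, h1, hcon⟩
  linarith

omit [DecidableEq α] in
theorem le_pcrit {P : Set (Finset α)} (hP : IsUpperSet P) (hne : P.Nonempty)
    {a : ℝ} (ha : a ≤ 1) {p0 : ℝ}
    (hsmall : ∀ p, 0 ≤ p → p ≤ 1 → p < p0 → mu p P < a) : p0 ≤ pcrit a P := by
  unfold pcrit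
  refine le_csInf (pcrit_set_nonempty hP hne ha) ?_
  intro b hb
  by_contra hcon
  rw [not_le] at hcon
  have := hsmall b hb.1 hb.2.1 hcon
  linarith [hb.2.2]

/-- the upper critical value is at least `lam` times the lower one when `lam ^ m = (1-ε)/ε`. -/
theorem pcrit_mul_le {P : Set (Finset α)} (hP : IsUpperSet P) (hne : P.Nonempty)
    {m : ℕ} (hW : ∀ H ∈ P, ∃ W ∈ P, W ⊆ H ∧ W.card ≤ m)
    {ε : ℝ} (hε0 : 0 < ε) (hε1 : ε < 1 / 2) {lam : ℝ} (hlam1 : 1 ≤ lam)
    (hlam : lam ^ m = (1 - ε) / ε) :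
    pcrit ε P * lam ≤ pcrit (1 - ε) P := by
  have hlampos : 0 < lam := by linarith
  have hmain : ∀ b ∈ {p : ℝ | 0 ≤ p ∧ p ≤ 1 ∧ 1 - ε ≤ mu p P}, pcrit ε P * lam ≤ b := by
    intro b hb
    obtain ⟨hb0, hb1, hbmu⟩ := hb
    by_contra hcon
    rw [not_le] at hcon
    have hq0 : 0 ≤ b / lam := div_nonneg hb0 hlampos.le
    have hq1 : b / lam ≤ 1 := by
      rw [div_le_one hlampos]; linarith
    have hqlt : b / lam < pcrit ε P := by
      rw [div_lt_iff₀ hlampos]; exact hcon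
    have hsmall : mu (b / lam) P < ε := mu_lt_of_lt_pcrit hq0 hq1 hqlt
    have hθ0 : 0 ≤ 1 / lam := by positivity
    have hθ1 : 1 / lam ≤ 1 := by
      rw [div_le_one hlampos]; exact hlam1
    have hthin := mu_thin_le hP hW hb0 hb1 hθ0 hθ1
    have e1 : b * (1 / lam) = b / lam := by ring
    rw [e1] at hthin
    have e2 : (1 / lam) ^ m = ε / (1 - ε) := by
      rw [one_div, inv_pow, hlam, inv_div]
    rw [e2] at hthin
    have h1ε : 0 < 1 - ε := by linarith
    have : ε ≤ ε / (1 - ε) * mu b P := by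
      calc ε = ε / (1 - ε) * (1 - ε) := by field_simp
        _ ≤ ε / (1 - ε) * mu b P :=
          mul_le_mul_of_nonneg_left hbmu (div_nonneg hε0.le h1ε.le)
    linarith
  unfold pcrit at hmain ⊢
  exact le_csInf (pcrit_set_nonempty hP hne (by linarith)) hmain

/-- General lower bound for the threshold width of an increasing family all of whose members
contain a member of size at most `m`. -/
theorem width_ge_of_small_witness {P : Set (Finset α)} (hP : IsUpperSet P) (hne : P.Nonempty)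
    {m : ℕ} (hm : 0 < m) (hW : ∀ H ∈ P, ∃ W ∈ P, W ⊆ H ∧ W.card ≤ m)
    {ε : ℝ} (hε0 : 0 < ε) (hε1 : ε < 1 / 2) {p0 : ℝ} (hp0 : 0 ≤ p0)
    (hsmall : ∀ p, 0 ≤ p → p ≤ 1 → p < p0 → mu p P < ε) :
    p0 * (Real.log ((1 - ε) / ε) / m) ≤ width ε P := by
  have hratio : 1 < (1 - ε) / ε := by
    rw [lt_div_iff₀ hε0]; linarith
  have hratio0 : 0 < (1 - ε) / ε := by linarith
  set lam : ℝ := ((1 - ε) / ε) ^ ((1 : ℝ) / m) with hlamdef
  have hmpos : (0 : ℝ) < m := by exact_mod_cast hm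
  have hlam1 : 1 ≤ lam := by
    rw [hlamdef]
    exact Real.one_le_rpow hratio.le (by positivity)
  have hlam : lam ^ m = (1 - ε) / ε := by
    rw [hlamdef, ← Real.rpow_natCast, ← Real.rpow_mul hratio0.le]
    have : (1 : ℝ) / m * m = 1 := by field_simp
    rw [this, Real.rpow_one]
  have hloglam : Real.log lam = Real.log ((1 - ε) / ε) / m := by
    rw [hlamdef, Real.log_rpow hratio0]
    ring
  have h1 := pcrit_mul_le hP hne hW hε0 hε1 hlam1 hlam
  have h2 : p0 ≤ pcrit ε P := le_pcrit hP hne (by linarith) hsmall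
  have h3 : Real.log lam ≤ lam - 1 := Real.log_le_sub_one_of_pos (by linarith)
  have h4 : 0 ≤ Real.log lam := Real.log_nonneg hlam1
  unfold width
  rw [← hloglam]
  calc p0 * Real.log lam ≤ pcrit ε P * Real.log lam := mul_le_mul_of_nonneg_right h2 h4
    _ ≤ pcrit ε P * (lam - 1) := mul_le_mul_of_nonneg_left h3 (pcrit_nonneg ε)
    _ = pcrit ε P * lam - pcrit ε P := by ring
    _ ≤ pcrit (1 - ε) P - pcrit ε P := by linarith

end Vale.Agent.Lib.P063
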